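import Vale.Agent.P290.H220.Iso1
import Vale.Agent.P290.H342.Inst
import Vale.Agent.P290.H470.C2
import Vale.Agent.P290.H445.Sec

/-!
# P290 / H220: isotropic classes on a K3 surface, the intersection form on divisors
-/

set_option linter.unusedSectionVars false

open scoped Manifold ContDiff ComplexConjugate Topology
open Set

noncomputable section

namespace Vale.Agent.P290.H220.Iso

open Vale.Agent.P267 Vale.Agent.P267.FL Vale.Agent.P267.BlockC Vale.Agent.P267.RR
  Vale.Agent.P267.H332 Vale.Agent.P267.H757 Vale.Agent.P267.H821 Vale.Agent.P290.H342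
open Vale.Agent.P267.H62 (Rep exists_rep divLB_rep)
open Vale.Agent.P290.H470 (PD NC Nm)

section gen

variable {Y : Type} [TopologicalSpace Y] [ChartedSpace C2 Y] [IsManifold 𝓘(ℂ, C2) ω Y]

theorem cF_mul {N N' : Y → ℝ} (hN : IsNormFn C2 N) (hN' : IsNormFn C2 N') :
    cF (fun x => N x * N' x) = cF N + cF N' := by
  apply TwoF.ext
  · funext x; simp [cF]
  · funext x; exact curvN_mul hN hN' x
  · funext x; simp [cF]

theorem exact_of_ratio {N N' ψ : Y → ℝ} (hN' : IsNormFn C2 N')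
    (hψ : ContMDiff 𝓘(ℝ, C2) 𝓘(ℝ) ∞ ψ) (h : ∀ x, N x = Real.exp (ψ x) * N' x) :
    ExactTwo (cF N - cF N') := by
  have h1 : IsNormFn C2 (fun x => Real.exp (ψ x)) := by
    have := isNormFn_exp (E := C2) (φ := fun x => -ψ x) hψ.neg
    simpa using this
  have h2 : N = fun x => Real.exp (ψ x) * N' x := funext h
  rw [h2, cF_mul h1 hN', add_sub_cancel_right]
  exact UData.cF_exp hψ

variable [T2Space Y] [CompactSpace Y]

theorem cF_one : cF (fun _ : Y => (1 : ℝ)) = 0 := by
  apply TwoF.ext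
  · rfl
  · funext x; exact curvN_one x
  · rfl

/-- the curvature form of a divisor -/
def phi : (PD Y →₀ ℤ) →+ TwoF Y :=
  (Finsupp.linearCombination ℤ fun C : PD Y => cF (NC C)).toAddMonoidHom

theorem phi_single (C : PD Y) (k : ℤ) : phi (Finsupp.single C k) = k • cF (NC C) :=
  Finsupp.linearCombination_single ℤ k C

theorem phi_mem (x : PD Y →₀ ℤ) : phi x ∈ HC Y := by
  induction x using Finsupp.induction_linear with
  | zero => rw [map_zero]; exact zero_mem _
  | add f g hf hg => rw [map_add]; exact add_mem hf hg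
  | single C k =>
    rw [phi_single]
    exact zsmul_mem (mem_HC_iff.2 ⟨cF_smooth (H470.NC_nf C), cF_closed (H470.NC_nf C)⟩) k

theorem Nm_nf (D : PD Y →₀ ℕ) : IsNormFn C2 (Nm D) := by
  obtain ⟨D', h, hr, -⟩ := H470.exists_rep_Nm D
  exact hr.isNormFn

theorem cF_Nm (D : PD Y →₀ ℕ) : cF (Nm D) = phi (toZ D) := by
  classical
  induction D using Finsupp.induction_linear with
  | zero => rw [map_zero, map_zero, H470.Nm_zero]; exact cF_one
  | add f g hf hg =>
    rw [H470.Nm_add, cF_mul (Nm_nf f) (Nm_nf g), hf, hg, map_add, map_add]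
  | single C k =>
    rw [toZ_single, phi_single]
    induction k with
    | zero =>
      rw [Finsupp.single_zero, H470.Nm_zero, cF_one]
      simp
    | succ k ih =>
      have h1 : Nm (Finsupp.single C (k + 1)) =
          fun x => Nm (Finsupp.single C k) x * Nm (Finsupp.single C 1) x := by
        rw [← H470.Nm_add, ← Finsupp.single_add]
      have h2 : Nm (Finsupp.single C 1) = NC C := by
        rw [H470.Nm_single]; funext x; exact pow_one _
      rw [h1, cF_mul (Nm_nf _) (Nm_nf _), ih, h2]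
      push_cast
      rw [add_smul, one_smul]

/-- the intersection form -/
def Bc (x y : PD Y →₀ ℤ) : ℂ := -(1 / (4 * (Real.pi : ℂ) ^ 2)) * pair (phi x) (phi y)

theorem Bc_comm (x y : PD Y →₀ ℤ) : Bc x y = Bc y x := by
  rw [Bc, Bc, H342.pair_comm]

theorem Bc_add_left (x x' y : PD Y →₀ ℤ) : Bc (x + x') y = Bc x y + Bc x' y := by
  rw [Bc, Bc, Bc, map_add, pair_add_left intAx (phi_mem x).1 (phi_mem x').1 (phi_mem y).1]
  ring

theorem Bc_add_right (x y y' : PD Y →₀ ℤ) : Bc x (y + y') = Bc x y + Bc x y' := by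
  rw [Bc_comm, Bc_add_left, Bc_comm y, Bc_comm y']

theorem pair_congr {F F' G G' : TwoF Y} (hF : F ∈ HC Y) (hF' : F' ∈ HC Y) (hG : G ∈ HC Y)
    (hG' : G' ∈ HC Y) (h : ExactTwo (F - F')) (h' : ExactTwo (G - G')) :
    pair F G = pair F' G' := by
  have key : ∀ {A A' C : TwoF Y}, A ∈ HC Y → A' ∈ HC Y → C ∈ HC Y → ExactTwo (A - A') →
      pair A C = pair A' C := by
    intro A A' C hA hA' hC h
    have h1 : A = (A - A') + A' := by abel
    have h2 : A - A' ∈ HC Y := sub_mem hA hA'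
    conv_lhs => rw [h1]
    rw [pair_add_left intAx h2.1 hA'.1 hC.1, pair_exact intAx h hC, zero_add]
  rw [key hF hF' hG h, H342.pair_comm, key hG hG' hF' h', H342.pair_comm]

theorem Bc_of_curv {ι ι' : Type} [Fintype ι] [DecidableEq ι] [Fintype ι'] [DecidableEq ι']
    {L : LB Y ι} {L' : LB Y ι'} {x x' : PD Y →₀ ℤ} (h : ExactTwo (L.curv - phi x))
    (h' : ExactTwo (L'.curv - phi x')) : isec L L' = Bc x x' := by
  rw [isec, Bc]
  congr 1
  exact pair_congr (mem_HC_iff.2 ⟨L.curv_smooth, L.curv_closed⟩) (phi_mem x)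
    (mem_HC_iff.2 ⟨L'.curv_smooth, L'.curv_closed⟩) (phi_mem x') h h'

theorem Bc_null {x : PD Y →₀ ℤ} (h : ExactTwo (phi x)) (y : PD Y →₀ ℤ) : Bc x y = 0 := by
  rw [Bc, pair_exact intAx h (phi_mem y), mul_zero]

theorem Bc_single (C C' : PD Y) :
    Bc (Finsupp.single C 1) (Finsupp.single C' 1) = nIP (NC C) (NC C') := by
  rw [Bc, phi_single, phi_single, one_smul, one_smul]
  rfl

theorem Bc_toZ (D D' : PD Y →₀ ℕ) : Bc (toZ D) (toZ D') = nIP (Nm D) (Nm D') := by
  rw [Bc, ← cF_Nm, ← cF_Nm]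
  rfl

theorem curv_tensor_dual {ι ι' : Type} [Fintype ι] [DecidableEq ι] [Fintype ι'] [DecidableEq ι']
    (L : LB Y ι) (L' : LB Y ι') : (L.tensor L'.dual).curv = L.curv - L'.curv := by
  have h1 := (lbFacts Y).tensor ⟨ι, L⟩ ⟨ι', L'.dual⟩
  have h2 := (lbFacts Y).dual ⟨ι', L'⟩
  change (L.tensor L'.dual).curv = L.curv + L'.dual.curv at h1
  change L'.dual.curv = -L'.curv at h2
  rw [h1, h2, sub_eq_add_neg]

theorem curv_dual {ι : Type} [Fintype ι] [DecidableEq ι] (L : LB Y ι) :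
    L.dual.curv = -L.curv := (lbFacts Y).dual ⟨ι, L⟩

/-- the class of the divisor of a norm function -/
theorem exact_dv {N : Y → ℝ} {D : PD Y →₀ ℕ} {ψ : Y → ℝ}
    (hψ : ContMDiff 𝓘(ℝ, C2) 𝓘(ℝ) ∞ ψ) (h : ∀ x, N x = Real.exp (ψ x) * Nm D x) :
    ExactTwo (cF N - phi (toZ D)) := by
  rw [← cF_Nm]
  exact exact_of_ratio (Nm_nf D) hψ h

/-- the line bundle of an effective divisor -/
theorem exists_lb (D : PD Y →₀ ℕ) : ∃ (r : ℕ) (D' : EffDiv Y) (A : H451.DivLB D' (Fin r)),
    (∃ ψ : Y → ℝ, ContMDiff 𝓘(ℝ, C2) 𝓘(ℝ) ∞ ψ ∧ ∀ x, ‖A.s x‖ ^ 2 = Real.exp (ψ x) * Nm D x) ∧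
      ExactTwo (A.L.curv - phi (toZ D)) := by
  obtain ⟨D', hD'⟩ := H470.div_surj D
  obtain ⟨r, ⟨A⟩⟩ := H451.exists_divLB D'
  have hr := divLB_rep A
  obtain ⟨ψ, hψ, h1⟩ := H470.factor_of_rep hr
  rw [hD'] at h1
  have hN : IsNormFn C2 (fun x => ‖A.s x‖ ^ 2) := hr.isNormFn
  refine ⟨r, D', A, ⟨ψ, hψ, h1⟩, ?_⟩
  have h2 := (lbnf A.hol A.s_reg A.s_sec A.s_hol (by
    refine hN.dense_ne_zero.mono ?_
    intro x hx h0
    apply hx
    show ‖A.s x‖ ^ 2 = 0
    rw [h0]; simp)).2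
  have h3 := exact_dv hψ h1
  rw [h2] at h3
  have h4 := chern_exact A.hol
  have h5 : A.L.curv - phi (toZ D) = (A.L.chern A.a - phi (toZ D)) - (A.L.chern A.a - A.L.curv) := by
    abel
  rw [h5]
  exact exact_sub h3 h4

end gen

section K3

variable (X : All.K3) (hS : SerreStmt X.X) (hR : RRStmt X.X) (h01 : H445.H01 X)

/-- decomposition of an integral divisor -/
theorem exists_pos_neg {P : Type*} (x : P →₀ ℤ) : ∃ a b : P →₀ ℕ, x = toZ a - toZ b := by
  classical
  refine ⟨x.mapRange Int.toNat rfl, x.mapRange (fun n => (-n).toNat) rfl, ?_⟩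
  ext C
  rw [Finsupp.sub_apply, toZ_apply, toZ_apply, Finsupp.mapRange_apply, Finsupp.mapRange_apply]
  omega

include hS hR h01 in
theorem Bc_self_even (x : PD X.X →₀ ℤ) : ∃ n : ℤ, Bc x x = 2 * n := by
  obtain ⟨a, b, rfl⟩ := exists_pos_neg x
  obtain ⟨r, Da, A, -, hA⟩ := exists_lb a
  obtain ⟨r', Db, B, -, hB⟩ := exists_lb b
  have h1 : ExactTwo ((A.L.tensor B.L.dual).curv - phi (toZ a - toZ b)) := by
    rw [curv_tensor_dual, map_sub]
    have := exact_sub hA hB
    convert this using 1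
    abel
  rw [← Bc_of_curv h1 h1]
  obtain ⟨n, h2, -⟩ := H445.rr_ineq X hS hR h01 _ (A.hol.tensor B.hol.dual)
  exact ⟨n, h2⟩

include hS hR h01 in
theorem Bc_int (x y : PD X.X →₀ ℤ) : ∃ n : ℤ, Bc x y = n := by
  obtain ⟨a, ha⟩ := Bc_self_even X hS hR h01 x
  obtain ⟨b, hb⟩ := Bc_self_even X hS hR h01 y
  obtain ⟨c, hc⟩ := Bc_self_even X hS hR h01 (x + y)
  refine ⟨c - a - b, ?_⟩
  rw [Bc_add_left, Bc_add_right, Bc_add_right, Bc_comm y x, ha, hb] at hc
  push_cast
  linear_combination (1 / 2 : ℂ) * hc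

/-- the integral intersection form -/
def BZ : (PD X.X →₀ ℤ) →+ (PD X.X →₀ ℤ) →+ ℤ where
  toFun x :=
    { toFun := fun y => (Bc_int X hS hR h01 x y).choose
      map_zero' := by
        have h := (Bc_int X hS hR h01 x 0).choose_spec
        have h1 : Bc x 0 = 0 := by
          have := Bc_add_right x 0 0
          rw [add_zero] at this
          exact left_eq_add.1 this
        exact_mod_cast h.symm.trans h1
      map_add' := fun y y' => by
        have h := (Bc_int X hS hR h01 x (y + y')).choose_spec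
        have h1 := (Bc_int X hS hR h01 x y).choose_spec
        have h2 := (Bc_int X hS hR h01 x y').choose_spec
        have h3 := (h.symm.trans (Bc_add_right x y y')).trans (congrArg₂ (· + ·) h1 h2)
        exact_mod_cast h3 }
  map_zero' := by
    ext y
    have h := (Bc_int X hS hR h01 0 (Finsupp.single y 1)).choose_spec
    have h1 : Bc (0 : PD X.X →₀ ℤ) (Finsupp.single y 1) = 0 := by
      have := Bc_add_left (0 : PD X.X →₀ ℤ) 0 (Finsupp.single y 1)
      rw [add_zero] at this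
      exact left_eq_add.1 this
    have h2 : (Bc_int X hS hR h01 0 (Finsupp.single y 1)).choose = 0 := by
      exact_mod_cast h.symm.trans h1
    simpa using h2
  map_add' x x' := by
    ext y
    have h := (Bc_int X hS hR h01 (x + x') (Finsupp.single y 1)).choose_spec
    have h1 := (Bc_int X hS hR h01 x (Finsupp.single y 1)).choose_spec
    have h2 := (Bc_int X hS hR h01 x' (Finsupp.single y 1)).choose_spec
    have h3 := (h.symm.trans (Bc_add_left x x' (Finsupp.single y 1))).trans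
      (congrArg₂ (· + ·) h1 h2)
    have h4 : (Bc_int X hS hR h01 (x + x') (Finsupp.single y 1)).choose =
      (Bc_int X hS hR h01 x (Finsupp.single y 1)).choose +
      (Bc_int X hS hR h01 x' (Finsupp.single y 1)).choose := by exact_mod_cast h3
    simpa using h4

theorem BZ_cast (x y : PD X.X →₀ ℤ) : ((BZ X hS hR h01 x y : ℤ) : ℂ) = Bc x y :=
  (Bc_int X hS hR h01 x y).choose_spec.symm

theorem BZ_comm (x y : PD X.X →₀ ℤ) : BZ X hS hR h01 x y = BZ X hS hR h01 y x := by
  have h : ((BZ X hS hR h01 x y : ℤ) : ℂ) = ((BZ X hS hR h01 y x : ℤ) : ℂ) := by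
    rw [BZ_cast, BZ_cast, Bc_comm]
  exact_mod_cast h

/-- the class of a norm function: its divisor -/
def clZ (N : X.X → ℝ) : PD X.X →₀ ℤ :=
  open Classical in if h : IsNormFn C2 N then toZ (H470.div (exists_rep h).choose) else 0

theorem clZ_eq {N : X.X → ℝ} {D : EffDiv X.X} {h : X.X → X.X → ℝ} (hr : Rep D h N) :
    clZ X N = toZ (H470.div D) := by
  classical
  have hN : IsNormFn C2 N := hr.isNormFn
  rw [clZ, dif_pos hN]
  congr 1
  obtain ⟨h', hr'⟩ := (exists_rep hN).choose_spec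
  exact H470.div_eq_iff.2 (hr'.same hr)

theorem clZ_Nm (D : PD X.X →₀ ℕ) : clZ X (Nm D) = toZ D := by
  obtain ⟨D', h, hr, hd⟩ := H470.exists_rep_Nm D
  rw [clZ_eq X hr, hd]

theorem clZ_exact {N : X.X → ℝ} (hN : IsNormFn C2 N) : ExactTwo (cF N - phi (clZ X N)) := by
  obtain ⟨D, h, hr⟩ := exists_rep hN
  obtain ⟨ψ, hψ, h1⟩ := H470.factor_of_rep hr
  rw [clZ_eq X hr]
  exact exact_dv hψ h1

theorem nIP_eq' {N N' : X.X → ℝ} (h : IsNormFn C2 N) (h' : IsNormFn C2 N') :
    nIP N N' = Bc (clZ X N) (clZ X N') := by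
  rw [nIP, Bc]
  congr 1
  exact pair_congr (mem_HC_iff.2 ⟨cF_smooth h, cF_closed h⟩) (phi_mem _)
    (mem_HC_iff.2 ⟨cF_smooth h', cF_closed h'⟩) (phi_mem _) (clZ_exact X h) (clZ_exact X h')

theorem nIP_re' {N N' : X.X → ℝ} (h : IsNormFn C2 N) (h' : IsNormFn C2 N') :
    (nIP N N').re = (BZ X hS hR h01 (clZ X N) (clZ X N') : ℝ) := by
  rw [nIP_eq' X h h', ← BZ_cast X hS hR h01]
  simp

/-- the divisor theory with values in the group of divisors -/
def divZ : DivTh C2 X.X where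
  H := PD X.X →₀ ℤ
  B := BZ X hS hR h01
  symm := BZ_comm X hS hR h01
  cl := clZ X
  cl_mul N N' h h' := by
    obtain ⟨D, k, hr⟩ := exists_rep h
    obtain ⟨D', k', hr'⟩ := exists_rep h'
    obtain ⟨S, l, hs⟩ := exists_rep (h.mul h')
    rw [clZ_eq X hr, clZ_eq X hr', clZ_eq X hs, H470.div_add (hs.isSum hr hr' fun x => rfl),
      map_add]
  cl_exp φ hφ := by
    have h1 : IsNormFn C2 (fun x => Real.exp (φ x)) := by
      have := isNormFn_exp (E := C2) (φ := fun x => -φ x) hφ.neg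
      simpa using this
    obtain ⟨D, k, hr⟩ := exists_rep h1
    rw [clZ_eq X hr]
    have : H470.div D = 0 := by
      rw [H470.div_eq_zero, hr.supp]
      ext x
      simp [(Real.exp_pos _).ne']
    rw [this, map_zero]
  κ := PD X.X
  N := NC
  nf := H470.NC_nf
  zero C := by
    have h := C.infinite.nonempty
    rwa [← H470.NC_zeroSet] at h
  finite C C' h := by
    rw [H470.NC_zeroSet, H470.NC_zeroSet]
    exact H470.PD.inter_finite h
  infinite C := by
    rw [H470.NC_zeroSet]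
    exact C.infinite
  factor _ h := H470.nf_factor h
  int_nonneg N₁ N₂ h₁ h₂ hf := by
    have := H220.nIP_nonneg h₁ h₂ hf
    rw [nIP_re' X hS hR h01 h₁ h₂] at this
    exact_mod_cast this
  int_zero N₁ N₂ h₁ h₂ hf := by
    have := H220.nIP_zero h₁ h₂ hf
    rw [nIP_eq' X h₁ h₂, ← BZ_cast X hS hR h01] at this
    exact_mod_cast this
  int_one N₁ N₂ h₁ h₂ hf p hp hp' := by
    have := H220.one_le_nIP h₁ h₂ hf p hp hp'
    rw [nIP_re' X hS hR h01 h₁ h₂] at this
    exact_mod_cast this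
  int_two N₁ N₂ h₁ h₂ hf p hp hp' := by
    have := H220.two_le_nIP h₁ h₂ hf p hp hp'
    rw [nIP_re' X hS hR h01 h₁ h₂] at this
    exact_mod_cast this
  int_four N₁ N₂ h₁ h₂ hf p hp hp' := by
    have := H220.four_le_nIP h₁ h₂ hf p hp hp'
    rw [nIP_re' X hS hR h01 h₁ h₂] at this
    exact_mod_cast this

end K3

end Vale.Agent.P290.H220.Iso
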