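import Vale.Agent.P267.H399.LBTensor
import Vale.Agent.P267.H221.Out
import Vale.Agent.P267.H821.LBNF

/-!
# P290 / H220: multiplication `H⁰(L ⊗ A^*) → H⁰(L)` by a section of `A`
-/

set_option linter.unusedVariables false
set_option linter.unusedSectionVars false
set_option linter.unusedSimpArgs false

open scoped Manifold ContDiff ComplexConjugate Matrix ComplexOrder
open MeasureTheory Set Filter Topology

noncomputable section

namespace Vale.Agent.P290.H220.Iso

open Vale.Agent.P267 Vale.Agent.P267.FL Vale.Agent.P267.FL.LB Vale.Agent.P267.RR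

variable {X : Type*} [TopologicalSpace X] [ChartedSpace C2 X]
variable {ι : Type} [Fintype ι] [DecidableEq ι] {ι' : Type} [Fintype ι'] [DecidableEq ι']

/-- contraction -/
def ctr (t : EuclideanSpace ℂ (ι × ι')) (s : EuclideanSpace ℂ ι') : EuclideanSpace ℂ ι :=
  WithLp.toLp 2 fun i => ∑ j, t (i, j) * s j

theorem ctr_apply (t : EuclideanSpace ℂ (ι × ι')) (s : EuclideanSpace ℂ ι') (i : ι) :
    ctr t s i = ∑ j, t (i, j) * s j := rfl

/-- the same as a continuous bilinear map -/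
def ctrL : EuclideanSpace ℂ (ι × ι') →L[ℂ] EuclideanSpace ℂ ι' →L[ℂ] EuclideanSpace ℂ ι :=
  LinearMap.toContinuousLinearMap
    ((LinearMap.toContinuousLinearMap : (EuclideanSpace ℂ ι' →ₗ[ℂ] EuclideanSpace ℂ ι) ≃ₗ[ℂ]
      (EuclideanSpace ℂ ι' →L[ℂ] EuclideanSpace ℂ ι)).toLinearMap ∘ₗ
    LinearMap.mk₂ ℂ (fun u v => ctr u v)
      (fun u u' v => by
        ext p; simp only [ctr_apply, PiLp.add_apply, add_mul, Finset.sum_add_distrib])
      (fun c u v => by
        ext p; simp only [ctr_apply, PiLp.smul_apply, smul_eq_mul, Finset.mul_sum, mul_assoc])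
      (fun u v v' => by
        ext p; simp only [ctr_apply, PiLp.add_apply, mul_add, Finset.sum_add_distrib])
      (fun c u v => by
        ext p; simp only [ctr_apply, PiLp.smul_apply, smul_eq_mul, Finset.mul_sum]
        exact Finset.sum_congr rfl fun j _ => by ring))

theorem ctrL_apply (u : EuclideanSpace ℂ (ι × ι')) (v : EuclideanSpace ℂ ι') :
    ctrL u v = ctr u v := rfl

attribute [irreducible] ctrL

theorem ctr_add_left (u u' : EuclideanSpace ℂ (ι × ι')) (v : EuclideanSpace ℂ ι') :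
    ctr (u + u') v = ctr u v + ctr u' v := by
  simp only [← ctrL_apply, map_add, _root_.add_apply]

theorem ctr_smul_left (c : ℂ) (u : EuclideanSpace ℂ (ι × ι')) (v : EuclideanSpace ℂ ι') :
    ctr (c • u) v = c • ctr u v := by
  simp only [← ctrL_apply, map_smul, _root_.smul_apply]

theorem ctr_smul_right (c : ℂ) (u : EuclideanSpace ℂ (ι × ι')) (v : EuclideanSpace ℂ ι') :
    ctr u (c • v) = c • ctr u v := by
  simp only [← ctrL_apply, map_smul]

theorem norm_ctr_le (u : EuclideanSpace ℂ (ι × ι')) (v : EuclideanSpace ℂ ι') :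
    ‖ctr u v‖ ≤ ‖(ctrL : EuclideanSpace ℂ (ι × ι') →L[ℂ] EuclideanSpace ℂ ι' →L[ℂ]
      EuclideanSpace ℂ ι)‖ * ‖u‖ * ‖v‖ := by
  rw [← ctrL_apply]
  exact ContinuousLinearMap.le_opNorm₂ _ _ _

theorem exists_ctr_le (ι ι' : Type) [Fintype ι] [DecidableEq ι] [Fintype ι'] [DecidableEq ι'] :
    ∃ C : ℝ, 0 ≤ C ∧ ∀ (u : EuclideanSpace ℂ (ι × ι')) (v : EuclideanSpace ℂ ι'),
      ‖ctr u v‖ ≤ C * ‖u‖ * ‖v‖ :=
  ⟨_, ContinuousLinearMap.opNorm_nonneg _, fun u v => norm_ctr_le u v⟩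

/-- compatibility with the projectors -/
theorem act_ctr (M : Matrix ι ι ℂ) (N : Matrix ι' ι' ℂ) (t : EuclideanSpace ℂ (ι × ι'))
    (s : EuclideanSpace ℂ ι') :
    act M (ctr t (act N s)) = ctr (act (Matrix.kroneckerMap (· * ·) M Nᵀ) t) s := by
  ext i
  simp only [act_apply, ctr_apply, Matrix.kroneckerMap_apply, Matrix.transpose_apply,
    Finset.mul_sum, Finset.sum_mul, Fintype.sum_prod_type]
  -- LHS: ∑ k ∑ l ∑ j M i k * (t (k,l) * (N l j * s j)); RHS: ∑ j ∑ k ∑ l ...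
  rw [Finset.sum_comm' (s := Finset.univ) (t := fun _ => Finset.univ) (t' := Finset.univ)
    (s' := fun _ => Finset.univ) (by simp)]
  rw [Finset.sum_comm]
  rw [Finset.sum_comm (f := fun (x : ι') (y : ι) => ∑ z : ι', M i y * N z x * t (y, z) * s x)]
  refine Finset.sum_congr rfl fun k _ => ?_
  rw [Finset.sum_comm]
  refine Finset.sum_congr rfl fun l _ => Finset.sum_congr rfl fun j _ => ?_
  ring

variable {L : LB X ι} {A : LB X ι'}

theorem tensor_dual_P (x : X) :
    (L.tensor A.dual).P x = Matrix.kroneckerMap (· * ·) (L.P x) (A.P x)ᵀ := rfl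

theorem act_ctr_of {x : X} {t : EuclideanSpace ℂ (ι × ι')} {s : EuclideanSpace ℂ ι'}
    (hs : act (A.P x) s = s) : act (L.P x) (ctr t s) = ctr (act ((L.tensor A.dual).P x) t) s := by
  rw [tensor_dual_P, ← act_ctr, hs]

theorem sec_ctr {t : X → EuclideanSpace ℂ (ι × ι')} {s : X → EuclideanSpace ℂ ι'}
    (ht : (L.tensor A.dual).Sec t) (hs : A.Sec s) : L.Sec fun x => ctr (t x) (s x) := by
  intro x
  rw [act_ctr_of (hs x), ht x]

/-- the contraction is injective on the fibres -/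
theorem ctr_eq_zero {x : X} {t : EuclideanSpace ℂ (ι × ι')} {s : EuclideanSpace ℂ ι'}
    (ht : act ((L.tensor A.dual).P x) t = t) (hs : act (A.P x) s = s) (h0 : s ≠ 0)
    (h : ctr t s = 0) : t = 0 := by
  obtain ⟨v, hv, h1⟩ := A.exists_vec x
  -- `s = c v` with `c ≠ 0`
  set c : ℂ := ∑ j, conj (v j) * s j with hc
  have hsv : ∀ l, s l = v l * c := by
    intro l
    conv_lhs => rw [← hs]
    rw [act_apply, hc, Finset.mul_sum]
    exact Finset.sum_congr rfl fun j _ => by rw [hv]; ring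
  have hc0 : c ≠ 0 := by
    intro hc0
    apply h0
    ext l
    rw [hsv l, hc0, mul_zero]
    rfl
  have h2 : ∀ k, ∑ l, t (k, l) * v l = 0 := by
    intro k
    have h3 : ctr t s k = 0 := by rw [h]; rfl
    rw [ctr_apply] at h3
    have h4 : ∑ j, t (k, j) * s j = c * ∑ l, t (k, l) * v l := by
      rw [Finset.mul_sum]
      exact Finset.sum_congr rfl fun j _ => by rw [hsv j]; ring
    rw [h4] at h3
    exact (mul_eq_zero.1 h3).resolve_left hc0
  ext ⟨i, j⟩
  conv_lhs => rw [← ht]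
  rw [act_apply, tensor_dual_P, Fintype.sum_prod_type]
  simp only [Matrix.kroneckerMap_apply, Matrix.transpose_apply, hv]
  have h3 : ∀ k, ∑ l, L.P x i k * (v l * conj (v j)) * t (k, l) =
      L.P x i k * conj (v j) * ∑ l, t (k, l) * v l := by
    intro k
    rw [Finset.mul_sum]
    exact Finset.sum_congr rfl fun l _ => by ring
  rw [Finset.sum_congr rfl fun k _ => h3 k]
  simp only [h2, mul_zero, Finset.sum_const_zero]
  rfl

variable [IsManifold 𝓘(ℂ, C2) ω X]

theorem at0_ctr {n : WithTop ℕ∞} {κ₁ κ₂ : ℤ} {t : X → EuclideanSpace ℂ (ι × ι')}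
    {s : X → EuclideanSpace ℂ ι'} {x : X} (ht : At0 n κ₁ t x) (hs : At0 n κ₂ s x) :
    At0 n (κ₁ + κ₂) (fun y => ctr (t y) (s y)) x := by
  simp only [← ctrL_apply]
  exact At0.bilin (V := EuclideanSpace ℂ (ι × ι')) (W := EuclideanSpace ℂ ι')
      (Z := EuclideanSpace ℂ ι) (B := ctrL) ht hs

theorem reg0_ctr {t : X → EuclideanSpace ℂ (ι × ι')} {s : X → EuclideanSpace ℂ ι'}
    (ht : Reg0 ∞ 0 t) (hs : Reg0 ∞ 0 s) : Reg0 ∞ 0 fun y => ctr (t y) (s y) := by
  have h := reg0_iff_at.2 fun x => at0_ctr (reg0_iff_at.1 ht x) (reg0_iff_at.1 hs x)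
  rwa [add_zero] at h

/-- the product of holomorphic sections is holomorphic -/
theorem db0_ctr {a α : X → Fin 2 → ℂ} {t : X → EuclideanSpace ℂ (ι × ι')}
    {s : X → EuclideanSpace ℂ ι'} {x : X} (ht : At0 1 0 t x) (hs : At0 1 0 s x)
    (htx : act ((L.tensor A.dual).P x) (t x) = t x) (hsx : act (A.P x) (s x) = s x)
    {i : Fin 2} (h1 : (L.tensor A.dual).db0 (fun y => a y + (-α) y) 0 t x i = 0)
    (h2 : A.db0 α 0 s x i = 0) : L.db0 a 0 (fun y => ctr (t y) (s y)) x i = 0 := by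
  have h3 : dbar0 0 (fun y => ctr (t y) (s y)) x i =
      ctr (dbar0 0 t x i) (s x) + ctr (t x) (dbar0 0 s x i) := by
    have := dbar0_bilin (V := EuclideanSpace ℂ (ι × ι')) (W := EuclideanSpace ℂ ι')
      (Z := EuclideanSpace ℂ ι) (B := ctrL) ht hs i
    simp only [ctrL_apply, add_zero] at this
    exact this
  have h4 : act ((L.tensor A.dual).P x) (dbar0 0 t x i) = -((a x i - α x i) • t x) := by
    rw [db0, Pi.add_apply, Pi.neg_apply, Pi.neg_apply, ← sub_eq_add_neg] at h1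
    exact eq_neg_of_add_eq_zero_left h1
  have h5 : act (A.P x) (dbar0 0 s x i) = -(α x i • s x) := by
    rw [db0] at h2
    exact eq_neg_of_add_eq_zero_left h2
  have h6 : act (L.P x) (ctr (t x) (s x)) = ctr (t x) (s x) := by rw [act_ctr_of hsx, htx]
  have h7 : act (L.P x) (ctr (dbar0 0 t x i) (s x)) = -((a x i - α x i) • ctr (t x) (s x)) := by
    rw [act_ctr_of hsx, h4, ← neg_smul, ctr_smul_left, neg_smul]
  have h8 : act (L.P x) (ctr (t x) (dbar0 0 s x i)) = -(α x i • ctr (t x) (s x)) := by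
    have e1 : act (L.P x) (ctr (t x) (act (A.P x) (dbar0 0 s x i))) =
        ctr (t x) (dbar0 0 s x i) := by
      rw [act_ctr, ← tensor_dual_P, htx]
    rw [h5, ← neg_smul, ctr_smul_right, LB.act_smul, h6] at e1
    rw [← e1, LB.act_smul, h6, neg_smul]
  rw [db0, h3, LB.act_add, h7, h8]
  module

/-- multiplication by a section of `A` -/
def mulS {a α : X → Fin 2 → ℂ} {s : X → EuclideanSpace ℂ ι'} (hs : Reg0 ∞ 0 s) (hsec : A.Sec s)
    (hdb : ∀ x i, A.db0 α 0 s x i = 0) :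
    H0 (L.tensor A.dual) (fun y => a y + (-α) y) 0 →ₗ[ℂ] H0 L a 0 where
  toFun t := ⟨fun y => ctr (t.1 y) (s y), by
    obtain ⟨⟨h1, h2⟩, h3⟩ := (mem_H0 _ _ _).1 t.2
    refine (mem_H0 _ _ _).2 ⟨⟨reg0_ctr h1 hs, sec_ctr h2 hsec⟩, ?_⟩
    funext x i
    exact db0_ctr ((reg0_iff_at.1 h1 x).of_le (by simp)) ((reg0_iff_at.1 hs x).of_le (by simp))
      (h2 x) (hsec x) (congrFun (congrFun h3 x) i) (hdb x i)⟩
  map_add' t t' := by
    apply Subtype.ext
    funext y
    exact ctr_add_left _ _ _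
  map_smul' c t := by
    apply Subtype.ext
    funext y
    exact ctr_smul_left _ _ _

theorem mulS_apply {a α : X → Fin 2 → ℂ} {s : X → EuclideanSpace ℂ ι'} (hs : Reg0 ∞ 0 s)
    (hsec : A.Sec s) (hdb : ∀ x i, A.db0 α 0 s x i = 0)
    (t : H0 (L.tensor A.dual) (fun y => a y + (-α) y) 0) (y : X) :
    (mulS (L := L) (a := a) hs hsec hdb t).1 y = ctr (t.1 y) (s y) := rfl

theorem mulS_injective {a α : X → Fin 2 → ℂ} {s : X → EuclideanSpace ℂ ι'} (hs : Reg0 ∞ 0 s)
    (hsec : A.Sec s) (hdb : ∀ x i, A.db0 α 0 s x i = 0) (hd : Dense {x | s x ≠ 0}) :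
    Function.Injective (mulS (L := L) (a := a) hs hsec hdb) := by
  rw [← LinearMap.ker_eq_bot, LinearMap.ker_eq_bot']
  intro t ht
  obtain ⟨⟨h1, h2⟩, h3⟩ := (mem_H0 _ _ _).1 t.2
  have hc : Continuous t.1 := Reg0.continuous h1
  apply Subtype.ext
  have h4 : {x | s x ≠ 0} ⊆ {x | t.1 x = 0} := by
    intro x hx
    refine ctr_eq_zero (h2 x) (hsec x) hx ?_
    have := congrArg (fun f : H0 L a 0 => f.1 x) ht
    exact this
  have h5 : IsClosed {x | t.1 x = 0} := isClosed_eq hc continuous_const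
  funext x
  exact (h5.closure_subset_iff.2 h4) (hd x)

end Vale.Agent.P290.H220.Iso
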