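import Vale.Agent.P290.H220.Iso2
import Vale.Agent.P290.H220.Iso3

/-!
# P290 / H220: isotropic classes on a K3 surface, the linear system of a line bundle
-/

set_option linter.unusedSectionVars false

open scoped Manifold ContDiff ComplexConjugate Topology
open Set Module

noncomputable section

namespace Vale.Agent.P290.H220.Iso

open Vale.Agent.P267 Vale.Agent.P267.FL Vale.Agent.P267.BlockC Vale.Agent.P267.RR
  Vale.Agent.P267.H332 Vale.Agent.P267.H757 Vale.Agent.P267.H821 Vale.Agent.P290.H342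
open Vale.Agent.P267.H62 (Rep exists_rep divLB_rep)
open Vale.Agent.P290.H470 (PD NC Nm)

variable (X : All.K3) (hF : FiniteStmt X.X) (hS : SerreStmt X.X) (hR : RRStmt X.X)
  (h01 : H445.H01 X)

/-! ### divisors of norm functions -/

theorem clZ_dv {N : X.X → ℝ} (hN : IsNormFn C2 N) :
    toZ ((divZ X hS hR h01).dv N) = clZ X N := by
  set T := divZ X hS hR h01 with hT
  obtain ⟨ψ, hψ, h⟩ := T.dv_spec hN
  have h1 : N = fun x => Real.exp (ψ x) * T.Nd (T.dv N) x := funext h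
  have h2 := T.cl_exp_mul (T.nf_Nd (T.dv N)) hψ
  have h3 : T.cl (T.Nd (T.dv N)) = toZ (T.dv N) := clZ_Nm X (T.dv N)
  rw [← h1, h3] at h2
  exact h2.symm

theorem dv_Nd (D : PD X.X →₀ ℕ) : (divZ X hS hR h01).dv (Nm D) = D := by
  apply toZ_injective
  rw [clZ_dv X hS hR h01 (Nm_nf D), clZ_Nm]
  rfl

/-- bounded quotients -/
theorem le_dv_iff {N N' : X.X → ℝ} (hN : IsNormFn C2 N) (hN' : IsNormFn C2 N') :
    (divZ X hS hR h01).dv N' ≤ (divZ X hS hR h01).dv N ↔ ∃ K : ℝ, ∀ x, N x ≤ K * N' x := by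
  set T := divZ X hS hR h01 with hT
  constructor
  · intro h
    obtain ⟨D, hD⟩ := exists_add_of_le h
    obtain ⟨ψ, hψ, h1⟩ := T.dv_spec hN
    obtain ⟨ψ', hψ', h2⟩ := T.dv_spec hN'
    have hc : Continuous fun x => Real.exp (ψ x - ψ' x) * T.Nd D x :=
      (Real.continuous_exp.comp (hψ.continuous.sub hψ'.continuous)).mul (T.nf_Nd D).continuous
    obtain ⟨K, hK⟩ := (isCompact_univ (X := X.X)).bddAbove_image (hc.continuousOn (s := univ))
    refine ⟨K, fun x => ?_⟩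
    have h3 : Real.exp (ψ x - ψ' x) * T.Nd D x ≤ K := hK ⟨x, mem_univ _, rfl⟩
    have h4 : N x = (Real.exp (ψ x - ψ' x) * T.Nd D x) * N' x := by
      rw [h1 x, h2 x, hD, T.Nd_add, Real.exp_sub]
      have := (Real.exp_pos (ψ' x)).ne'
      field_simp
    rw [h4]
    exact mul_le_mul_of_nonneg_right h3 (hN'.nonneg x)
  · rintro ⟨K, hK⟩
    exact dv_le_of_le T hN hN' hK

/-! ### sections -/

variable {ι : Type} [Fintype ι] [DecidableEq ι] {L : LB X.X ι} {a : X.X → Fin 2 → ℂ}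

theorem sec_ne {s : H0 L a 0} (h : s ≠ 0) : s.1 ≠ 0 := fun h0 => h (Subtype.ext h0)

/-- norm function of a section -/
def Ns (s : H0 L a 0) (x : X.X) : ℝ := ‖s.1 x‖ ^ 2

theorem Ns_nf (ha : L.IsHol a) {s : H0 L a 0} (h : s ≠ 0) : IsNormFn C2 (Ns X s) :=
  (H445.isSection_of_mem X ha s.2 (sec_ne X h)).isNormFn_zero

theorem Ns_cF (ha : L.IsHol a) {s : H0 L a 0} (h : s ≠ 0) : cF (Ns X s) = L.chern a :=
  (H445.isSection_of_mem X ha s.2 (sec_ne X h)).cF_zero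

set_option linter.unusedVariables false in
theorem Ns_smul (c : ℂ) (s : H0 L a 0) (x : X.X) : Ns X (c • s) x = ‖c‖ ^ 2 * Ns X s x := by
  change ‖c • s.1 x‖ ^ 2 = ‖c‖ ^ 2 * ‖s.1 x‖ ^ 2
  rw [norm_smul, mul_pow]

theorem Ns_add_le (s t : H0 L a 0) (x : X.X) : Ns X (s + t) x ≤ 2 * (Ns X s x + Ns X t x) := by
  change ‖s.1 x + t.1 x‖ ^ 2 ≤ 2 * (‖s.1 x‖ ^ 2 + ‖t.1 x‖ ^ 2)
  have h1 := norm_add_le (s.1 x) (t.1 x)
  have h2 := norm_nonneg (s.1 x + t.1 x)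
  nlinarith [sq_nonneg (‖s.1 x‖ - ‖t.1 x‖)]

theorem Ns_sub_le (s t : H0 L a 0) (x : X.X) : Ns X (s - t) x ≤ 2 * (Ns X s x + Ns X t x) := by
  change ‖s.1 x - t.1 x‖ ^ 2 ≤ 2 * (‖s.1 x‖ ^ 2 + ‖t.1 x‖ ^ 2)
  have h1 := norm_sub_le (s.1 x) (t.1 x)
  have h2 := norm_nonneg (s.1 x - t.1 x)
  nlinarith [sq_nonneg (‖s.1 x‖ - ‖t.1 x‖)]

theorem Ns_nonneg (s : H0 L a 0) (x : X.X) : 0 ≤ Ns X s x := sq_nonneg _

/-- the divisor of a section -/
def dvs (s : H0 L a 0) : PD X.X →₀ ℕ := (divZ X hS hR h01).dv (Ns X s)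

theorem exact_dvs (ha : L.IsHol a) {s : H0 L a 0} (h : s ≠ 0) :
    ExactTwo (L.curv - phi (toZ (dvs X hS hR h01 s))) := by
  have h1 := clZ_exact X (Ns_nf X ha h)
  rw [← clZ_dv X hS hR h01 (Ns_nf X ha h), Ns_cF X ha h] at h1
  have h2 := chern_exact ha
  have h3 : L.curv - phi (toZ (dvs X hS hR h01 s)) =
      (L.chern a - phi (toZ (dvs X hS hR h01 s))) - (L.chern a - L.curv) := by abel
  rw [h3]
  exact exact_sub h1 h2

/-- exact divisors -/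
def EX : AddSubgroup (PD X.X →₀ ℤ) where
  carrier := {x | ExactTwo (phi x)}
  add_mem' := fun {x y} hx hy => by
    change ExactTwo (phi (x + y))
    rw [map_add]; exact exact_add hx hy
  zero_mem' := by
    change ExactTwo (phi 0)
    rw [map_zero]; exact exactTwo_zero
  neg_mem' := fun {x} hx => by
    change ExactTwo (phi (-x))
    rw [map_neg]; exact exact_neg hx

theorem mem_EX {x : PD X.X →₀ ℤ} : x ∈ EX X ↔ ExactTwo (phi x) := Iff.rfl

include h01 in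
/-- an effective divisor with exact class is zero -/
theorem eff_EX (D : PD X.X →₀ ℕ) (h : toZ D ∈ EX X) : D = 0 := by
  obtain ⟨A, hA, h1⟩ := (mem_EX X).1 h
  rw [← cF_Nm] at h1
  have h2 := ne_zero_of_exact (Y := X.X) h01 (Nm_nf D) hA h1
  by_contra hne
  obtain ⟨C, hC⟩ := Finsupp.ne_iff.1 hne
  obtain ⟨y, hy⟩ := C.infinite.nonempty
  apply h2 y
  rw [← H470.NC_zero_iff] at hy
  rw [Nm, Finsupp.prod, Finset.prod_eq_zero_iff]
  exact ⟨C, Finsupp.mem_support_iff.2 hC, by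
    rw [hy]; exact zero_pow hC⟩

include hS hR h01 in
theorem BZ_null {x : PD X.X →₀ ℤ} (h : x ∈ EX X) (y : PD X.X →₀ ℤ) :
    BZ X hS hR h01 x y = 0 := by
  have h1 : ((BZ X hS hR h01 x y : ℤ) : ℂ) = 0 := by rw [BZ_cast, Bc_null h]
  exact_mod_cast h1

theorem curv_prime (C : PD X.X) : ExactTwo (C.lb.L.curv - phi (Finsupp.single C 1)) := by
  have h1 := (lbnf C.lb.hol C.lb.s_reg C.lb.s_sec C.lb.s_hol (by
    refine (H470.NC_nf C).dense_ne_zero.mono ?_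
    intro x hx h0
    apply hx
    show ‖C.lb.s x‖ ^ 2 = 0
    rw [h0]; simp)).2
  have h2 : phi (Finsupp.single C 1) = C.lb.L.chern C.lb.a := by
    rw [phi_single, one_smul, ← h1]
    rfl
  rw [h2]
  have := exact_neg (chern_exact C.lb.hol)
  rwa [neg_sub] at this

include hF in
theorem BZ_self (C : PD X.X)
    (h : BZ X hS hR h01 (Finsupp.single C 1) (Finsupp.single C 1) < 0) :
    BZ X hS hR h01 (Finsupp.single C 1) (Finsupp.single C 1) = -2 := by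
  obtain ⟨n, h1, h2⟩ := H470.self_ge X hF hS hR h01 C.prime C.lb
  have h3 : ((BZ X hS hR h01 (Finsupp.single C 1) (Finsupp.single C 1) : ℤ) : ℂ) =
      ((2 * n : ℤ) : ℂ) := by
    rw [BZ_cast, ← Bc_of_curv (curv_prime X C) (curv_prime X C), h1]
    push_cast
    rfl
  have h4 : BZ X hS hR h01 (Finsupp.single C 1) (Finsupp.single C 1) = 2 * n := by
    exact_mod_cast h3
  omega

theorem BZ_nonneg {C C' : PD X.X} (h : C ≠ C') :
    0 ≤ BZ X hS hR h01 (Finsupp.single C 1) (Finsupp.single C' 1) := by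
  have h1 : ∀ C : PD X.X, clZ X (NC C) = Finsupp.single C 1 := by
    intro C
    have h2 : Nm (Finsupp.single C 1) = NC C := by
      rw [H470.Nm_single]; funext x; exact pow_one _
    rw [← h2, clZ_Nm, toZ_single]
    rfl
  have h3 := (divZ X hS hR h01).int_nonneg _ _ (H470.NC_nf C) (H470.NC_nf C')
    ((divZ X hS hR h01).finite C C' h)
  change 0 ≤ BZ X hS hR h01 (clZ X (NC C)) (clZ X (NC C')) at h3
  rwa [h1, h1] at h3

/-! ### the system -/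

section sys

variable (ha : L.IsHol a)

include ha in
theorem lin_dvs {s t : H0 L a 0} (hs : s ≠ 0) (ht : t ≠ 0) :
    toZ (dvs X hS hR h01 s) - toZ (dvs X hS hR h01 t) ∈ EX X := by
  rw [mem_EX, map_sub]
  have := exact_sub (exact_dvs X hS hR h01 ha ht) (exact_dvs X hS hR h01 ha hs)
  convert this using 1
  abel

include ha in
theorem dvs_uniq {s t : H0 L a 0} (hs : s ≠ 0) (ht : t ≠ 0)
    (h : dvs X hS hR h01 s = dvs X hS hR h01 t) : ∃ c : ℂ, t = c • s := by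
  obtain ⟨x0, hx0⟩ : ∃ x, s.1 x ≠ 0 := by
    by_contra hcon
    push Not at hcon
    exact sec_ne X hs (funext hcon)
  have hsec : ∀ s : H0 L a 0, L.Sec s.1 := fun s => ((mem_H0 _ _ _).1 s.2).1.2
  obtain ⟨c, hc⟩ := L.fibre_smul x0 (hsec s x0) (hsec t x0) hx0
  refine ⟨c, ?_⟩
  by_contra hne
  set u := t - c • s with hu
  have hu0 : u ≠ 0 := fun h0 => hne (sub_eq_zero.1 h0)
  have hux : Ns X u x0 = 0 := by
    change ‖t.1 x0 - c • s.1 x0‖ ^ 2 = 0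
    rw [hc, sub_self, norm_zero, zero_pow two_ne_zero]
  have nfs := Ns_nf X ha hs
  have nft := Ns_nf X ha ht
  have nfu := Ns_nf X ha hu0
  obtain ⟨K, hK⟩ := (le_dv_iff X hS hR h01 nft nfs).1 h.le
  have h1 : dvs X hS hR h01 s ≤ dvs X hS hR h01 u := by
    refine (le_dv_iff X hS hR h01 nfu nfs).2 ⟨2 * (K + ‖c‖ ^ 2), fun x => ?_⟩
    have h2 := Ns_sub_le X t (c • s) x
    rw [Ns_smul] at h2
    have h3 := hK x
    calc Ns X u x ≤ 2 * (Ns X t x + ‖c‖ ^ 2 * Ns X s x) := h2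
      _ ≤ 2 * (K * Ns X s x + ‖c‖ ^ 2 * Ns X s x) := by linarith
      _ = _ := by ring
  obtain ⟨D, hD⟩ := exists_add_of_le h1
  have h2 : D = 0 := by
    refine eff_EX X h01 D ?_
    have h3 := lin_dvs X hS hR h01 ha hu0 hs
    rw [hD, map_add, add_sub_cancel_left] at h3
    exact h3
  rw [h2, add_zero] at hD
  obtain ⟨K', hK'⟩ := (le_dv_iff X hS hR h01 nfs nfu).1 hD.le
  have h3 := hK' x0
  rw [hux, mul_zero] at h3
  have h4 : 0 < Ns X s x0 := by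
    have := norm_pos_iff.2 hx0
    change 0 < ‖s.1 x0‖ ^ 2
    positivity
  linarith

include ha in
theorem dvs_smul (c : ℂ) (s : H0 L a 0) (hc : c ≠ 0) (hs : s ≠ 0) :
    dvs X hS hR h01 (c • s) = dvs X hS hR h01 s := by
  have hcs : c • s ≠ 0 := smul_ne_zero hc hs
  refine le_antisymm ?_ ?_
  · refine (le_dv_iff X hS hR h01 (Ns_nf X ha hs) (Ns_nf X ha hcs)).2 ⟨(‖c‖ ^ 2)⁻¹, fun x => ?_⟩
    rw [Ns_smul, ← mul_assoc, inv_mul_cancel₀ (pow_ne_zero 2 (norm_ne_zero_iff.2 hc)), one_mul]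
  · exact (le_dv_iff X hS hR h01 (Ns_nf X ha hcs) (Ns_nf X ha hs)).2
      ⟨‖c‖ ^ 2, fun x => (Ns_smul X c s x).le⟩

include ha in
theorem dvs_add (F : PD X.X →₀ ℕ) (s t : H0 L a 0) (hs : s ≠ 0) (ht : t ≠ 0) (hst : s + t ≠ 0)
    (h1 : F ≤ dvs X hS hR h01 s) (h2 : F ≤ dvs X hS hR h01 t) :
    F ≤ dvs X hS hR h01 (s + t) := by
  have hF' := dv_Nd X hS hR h01 F
  rw [← hF'] at h1 h2 ⊢
  obtain ⟨K, hK⟩ := (le_dv_iff X hS hR h01 (Ns_nf X ha hs) (Nm_nf F)).1 h1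
  obtain ⟨K', hK'⟩ := (le_dv_iff X hS hR h01 (Ns_nf X ha ht) (Nm_nf F)).1 h2
  refine (le_dv_iff X hS hR h01 (Ns_nf X ha hst) (Nm_nf F)).2 ⟨2 * (K + K'), fun x => ?_⟩
  have h3 := Ns_add_le X s t x
  have h4 := hK x
  have h5 := hK' x
  calc Ns X (s + t) x ≤ 2 * (Ns X s x + Ns X t x) := h3
    _ ≤ 2 * (K * Nm F x + K' * Nm F x) := by linarith
    _ = _ := by ring

/-- a nonzero finite dimensional space has a nonzero element -/
theorem exists_ne_of_h0 {ι' : Type} [Fintype ι'] [DecidableEq ι'] {M : LB X.X ι'}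
    {b : X.X → Fin 2 → ℂ} (h : 0 < RR.h0 M b 0) : ∃ s : H0 M b 0, s ≠ 0 := by
  have h5 : Nontrivial (H0 M b 0) := Module.nontrivial_of_finrank_pos (R := ℂ) h
  exact exists_ne 0

include ha in
/-- the image of the multiplication by a section with divisor `F` -/
theorem rr_left {r : ℕ} {F : PD X.X →₀ ℕ} {DF : EffDiv X.X} (A : H451.DivLB DF (Fin r))
    {ψ : X.X → ℝ} (hψ : ContMDiff 𝓘(ℝ, C2) 𝓘(ℝ) ∞ ψ)
    (hA : ∀ x, ‖A.s x‖ ^ 2 = Real.exp (ψ x) * Nm F x)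
    (h6 : 2 ≤ finrank ℂ (H0 (L.tensor A.L.dual) (fun y => a y + (-A.a) y) 0)) :
    ∃ W : Submodule ℂ (H0 L a 0), 2 ≤ finrank ℂ W ∧
      ∀ s ∈ W, s ≠ 0 → F ≤ dvs X hS hR h01 s := by
  have hAN : IsNormFn C2 (fun x => ‖A.s x‖ ^ 2) := (divLB_rep A).isNormFn
  have hd : Dense {x | A.s x ≠ 0} := by
    refine hAN.dense_ne_zero.mono ?_
    intro x hx h0
    apply hx
    show ‖A.s x‖ ^ 2 = 0
    rw [h0]; simp
  refine ⟨LinearMap.range (mulS (L := L) (a := a) A.s_reg A.s_sec A.s_hol), ?_, ?_⟩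
  · rw [LinearMap.finrank_range_of_inj
      (mulS_injective (L := L) (a := a) A.s_reg A.s_sec A.s_hol hd)]
    exact h6
  · rintro s ⟨t, ht⟩ hs
    have hval : ∀ x, s.1 x = ctr (t.1 x) (A.s x) := by
      intro x
      rw [← ht]
      exact mulS_apply A.s_reg A.s_sec A.s_hol t x
    rw [← dv_Nd X hS hR h01 F]
    refine (le_dv_iff X hS hR h01 (Ns_nf X ha hs) (Nm_nf F)).2 ?_
    -- bounds
    have hct : Continuous t.1 := Reg0.continuous ((mem_H0 _ _ _).1 t.2).1.1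
    obtain ⟨K, hK⟩ := (isCompact_univ (X := X.X)).bddAbove_image
      ((hct.norm).continuousOn (s := univ))
    obtain ⟨K', hK'⟩ := (isCompact_univ (X := X.X)).bddAbove_image
      ((Real.continuous_exp.comp hψ.continuous).continuousOn (s := univ))
    obtain ⟨C, hC0, hC⟩ := exists_ctr_le ι (Fin r)
    refine ⟨(C * K) ^ 2 * K', fun x => ?_⟩
    have e1 : ‖t.1 x‖ ≤ K := hK ⟨x, mem_univ _, rfl⟩
    have e2 : Real.exp (ψ x) ≤ K' := hK' ⟨x, mem_univ _, rfl⟩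
    have e3 := hC (t.1 x) (A.s x)
    have e4 : ‖ctr (t.1 x) (A.s x)‖ ≤ C * K * ‖A.s x‖ :=
      e3.trans (mul_le_mul_of_nonneg_right (mul_le_mul_of_nonneg_left e1 hC0) (norm_nonneg _))
    have e5 : ‖ctr (t.1 x) (A.s x)‖ ^ 2 ≤ (C * K) ^ 2 * ‖A.s x‖ ^ 2 := by
      rw [← mul_pow]
      exact pow_le_pow_left₀ (norm_nonneg _) e4 2
    have e6 : ‖A.s x‖ ^ 2 ≤ K' * Nm F x := by
      rw [hA x]
      exact mul_le_mul_of_nonneg_right e2 ((Nm_nf F).nonneg x)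
    have e7 : Ns X s x = ‖ctr (t.1 x) (A.s x)‖ ^ 2 := by
      rw [← hval x]
      rfl
    calc Ns X s x = ‖ctr (t.1 x) (A.s x)‖ ^ 2 := e7
      _ ≤ (C * K) ^ 2 * ‖A.s x‖ ^ 2 := e5
      _ ≤ (C * K) ^ 2 * (K' * Nm F x) := mul_le_mul_of_nonneg_left e6 (sq_nonneg _)
      _ = _ := by ring

include hS hR h01 in
/-- a section of the dual of `M ~ x` has a divisor `D ~ -x` -/
theorem rr_right {ι' : Type} [Fintype ι'] [DecidableEq ι'] {M : LB X.X ι'}
    {b : X.X → Fin 2 → ℂ} (hb : M.IsHol b) {x : PD X.X →₀ ℤ} (h1 : ExactTwo (M.curv - phi x))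
    (h5 : RR.h0 M.dual (-b) 0 ≠ 0) : ∃ D : PD X.X →₀ ℕ, toZ D + x ∈ EX X := by
  obtain ⟨t, ht⟩ := exists_ne_of_h0 X (Nat.pos_of_ne_zero h5)
  refine ⟨dvs X hS hR h01 t, ?_⟩
  have h6 := exact_dvs X hS hR h01 hb.dual ht
  rw [curv_dual] at h6
  rw [mem_EX, map_add]
  have h8 := exact_neg (exact_add h6 h1)
  convert h8 using 1
  abel

include ha in
/-- Riemann-Roch for `L - F` -/
theorem rr_F (s0 : H0 L a 0) (hs0 : s0 ≠ 0) (F : PD X.X →₀ ℕ)
    (h : BZ X hS hR h01 (toZ (dvs X hS hR h01 s0) - toZ F)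
      (toZ (dvs X hS hR h01 s0) - toZ F) = 0) :
    (∃ W : Submodule ℂ (H0 L a 0), 2 ≤ finrank ℂ W ∧
      ∀ s ∈ W, s ≠ 0 → F ≤ dvs X hS hR h01 s) ∨
      ∃ D : PD X.X →₀ ℕ, toZ D - toZ F + toZ (dvs X hS hR h01 s0) ∈ EX X := by
  obtain ⟨r, DF, A, ⟨ψ, hψ, hA⟩, hA2⟩ := exists_lb F
  -- the class of `L ⊗ A^*`
  have h1 : ExactTwo ((L.tensor A.L.dual).curv - phi (toZ (dvs X hS hR h01 s0) - toZ F)) := by
    rw [curv_tensor_dual, map_sub]
    have := exact_sub (exact_dvs X hS hR h01 ha hs0) hA2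
    convert this using 1
    abel
  have ha' : (L.tensor A.L.dual).IsHol (fun y => a y + (-A.a) y) := ha.tensor A.hol.dual
  obtain ⟨n, h2, h3, -⟩ := H445.rr_ineq X hS hR h01 _ ha'
  have h4 : n = 0 := by
    have h5 : isec (L.tensor A.L.dual) (L.tensor A.L.dual) = 0 := by
      rw [Bc_of_curv h1 h1, ← BZ_cast X hS hR h01, h]
      simp
    rw [h5] at h2
    have : (n : ℂ) = 0 := by linear_combination -(1 / 2 : ℂ) * h2
    exact_mod_cast this
  by_cases h5 : RR.h0 (L.tensor A.L.dual).dual (-(fun y => a y + (-A.a) y)) 0 = 0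
  · left
    rw [h4, h5] at h3
    refine rr_left X hS hR h01 ha A hψ hA ?_
    have h7 : (2 : ℤ) ≤ RR.h0 (L.tensor A.L.dual) (fun y => a y + (-A.a) y) 0 := by
      push_cast at h3; linarith
    exact_mod_cast h7
  · right
    obtain ⟨D, hD⟩ := rr_right X hS hR h01 ha' h1 h5
    refine ⟨D, ?_⟩
    convert hD using 1
    abel

/-- the abstract situation -/
def isoTh (s0 : H0 L a 0) (hs0 : s0 ≠ 0) : IsoTh (PD X.X) (H0 L a 0) where
  B := BZ X hS hR h01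
  symm := BZ_comm X hS hR h01
  nonneg _ _ h := BZ_nonneg X hS hR h01 h
  self C h := BZ_self X hF hS hR h01 C h
  E := EX X
  null _ hx y := BZ_null X hS hR h01 hx y
  eff D h := eff_EX X h01 D h
  dv := dvs X hS hR h01
  x0 := toZ (dvs X hS hR h01 s0)
  lin s hs := lin_dvs X hS hR h01 ha hs hs0
  add F s t hs ht hst h1 h2 := dvs_add X hS hR h01 ha F s t hs ht hst h1 h2
  smul c s hc hs := dvs_smul X hS hR h01 ha c s hc hs
  uniq s t hs ht h := dvs_uniq X hS hR h01 ha hs ht h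
  rr F h := rr_F X hS hR h01 ha s0 hs0 F h

include hF hS hR h01 ha in
/-- **two sections whose moving parts are disjoint** -/
theorem exists_pair (h2 : 2 ≤ RR.h0 L a 0) (hsq : isec L L = 0) :
    ∃ (s t : H0 L a 0) (G D₁ D₂ : PD X.X →₀ ℕ), s ≠ 0 ∧ t ≠ 0 ∧
      dvs X hS hR h01 s = G + D₁ ∧ dvs X hS hR h01 t = G + D₂ ∧ D₁ ≠ 0 ∧
      ∀ x, Nm D₁ x = 0 → Nm D₂ x ≠ 0 := by
  obtain ⟨s0, hs0⟩ := exists_ne_of_h0 X (M := L) (b := a) (by omega)
  have : FiniteDimensional ℂ (H0 L a 0) := (hF ι L a ha 0).1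
  have hx : BZ X hS hR h01 (toZ (dvs X hS hR h01 s0)) (toZ (dvs X hS hR h01 s0)) = 0 := by
    have h1 := exact_dvs X hS hR h01 ha hs0
    have h3 : ((BZ X hS hR h01 (toZ (dvs X hS hR h01 s0)) (toZ (dvs X hS hR h01 s0)) : ℤ) : ℂ) =
        0 := by
      rw [BZ_cast, ← Bc_of_curv h1 h1, hsq]
    exact_mod_cast h3
  obtain ⟨s, t, G, D₁, D₂, hs, ht, e1, e2, h0, hd, hB⟩ :=
    (isoTh X hF hS hR h01 ha s0 hs0).main h2 hx
  refine ⟨s, t, G, D₁, D₂, hs, ht, e1, e2, h0, fun x hx1 hx2 => ?_⟩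
  set T := divZ X hS hR h01 with hT
  have hfin : ({x | Nm D₁ x = 0} ∩ {x | Nm D₂ x = 0}).Finite := by
    refine T.finite_common (Nm_nf D₁) (Nm_nf D₂) ?_
    rw [hT, dv_Nd X hS hR h01, dv_Nd X hS hR h01]
    intro C hC hC'
    exact Finset.disjoint_left.1 hd hC hC'
  have h5 := T.int_one _ _ (Nm_nf D₁) (Nm_nf D₂) hfin x hx1 hx2
  change 1 ≤ BZ X hS hR h01 (clZ X (Nm D₁)) (clZ X (Nm D₂)) at h5
  rw [clZ_Nm, clZ_Nm] at h5
  have h6 : BZ X hS hR h01 (toZ D₁) (toZ D₂) = 0 := hB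
  omega

end sys

end Vale.Agent.P290.H220.Iso
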