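import Vale.Agent.P290.H220.Iso4
import Vale.Agent.P290.H362.Map
import Vale.Agent.P290.H95.Goal

/-!
# P290 / H220: a K3 surface with an isotropic line bundle is elliptic
-/

set_option linter.unusedSectionVars false

open scoped Manifold ContDiff ComplexConjugate Topology
open Set Module Filter

noncomputable section

namespace Vale.Agent.P290.H220.Iso

open Vale.Agent.P267 Vale.Agent.P267.FL Vale.Agent.P267.BlockC Vale.Agent.P267.RR
  Vale.Agent.P267.H332 Vale.Agent.P267.H757 Vale.Agent.P267.H821 Vale.Agent.P290.H342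
open Vale.Agent.P267.H62 (Rep exists_rep divLB_rep assoc_of_locRep)
open Vale.Agent.P267.H815 (HolN UnitN Assoc)
open Vale.Agent.P290.H470 (PD NC Nm prodf)
open Vale.Agent.P290.K (P1)

variable (X : All.K3) (hF : FiniteStmt X.X) (hS : SerreStmt X.X) (hR : RRStmt X.X)
  (h01 : H445.H01 X)

/-! ### the local equations -/

/-- zeros of the local equation of an effective divisor -/
theorem prodf_zero_iff (D : PD X.X →₀ ℕ) {p z : X.X}
    (hz : ∀ C ∈ D.support, z ∈ (C : PD X.X).eff.U p) : prodf D p z = 0 ↔ Nm D z = 0 := by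
  rw [H470.prodf_eq_zero_iff, Nm, Finsupp.prod, Finset.prod_eq_zero_iff]
  refine exists_congr fun C => and_congr_right fun hC => ?_
  rw [pow_eq_zero_iff (Finsupp.mem_support_iff.1 hC), H470.NC_zero_iff, ← C.supp_eq,
    H815.mem_supp_iff C.eff (hz C hC)]

theorem prodf_freq_mul (D : PD X.X →₀ ℕ) {p q z : X.X}
    (hp : ∀ C ∈ D.support, z ∈ (C : PD X.X).eff.U p)
    (hq : ∀ C ∈ D.support, z ∈ (C : PD X.X).eff.U q) :
    ∃ᶠ w in 𝓝 z, prodf D p w * prodf D q w ≠ 0 := by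
  have h1 : Assoc (fun w => prodf D p w * prodf D q w) (fun w => prodf D z w * prodf D z w) z := by
    refine Assoc.mul ?_ ?_
    · exact H470.assoc_prodf D hp fun C _ => C.eff.mem z
    · exact H470.assoc_prodf D hq fun C _ => C.eff.mem z
  have h2 := H470.prodf_frequently (D + D) z
  rw [H470.prodf_add] at h2
  exact h1.frequently h2

/-- a local representation of a norm function is the product of the local equations of its
divisor -/
theorem assoc_loc {N : X.X → ℝ} (hN : IsNormFn FL.C2 N) {U : Set X.X} {g : X.X → ℂ} {φ : X.X → ℝ}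
    (h : LocRep FL.C2 N U g φ) {p : X.X} (hp : p ∈ U) :
    Assoc g (prodf ((divZ X hS hR h01).dv N) p) p := by
  obtain ⟨D, k, hr⟩ := exists_rep hN
  have h1 : (divZ X hS hR h01).dv N = H470.div D := by
    apply toZ_injective
    rw [clZ_dv X hS hR h01 hN, clZ_eq X hr]
    rfl
  have h2 : Assoc g (D.f p) p := assoc_of_locRep h (hr.locRep p) hp (D.mem p)
  have h3 := h2.trans (H470.div_spec D p)
  rw [h1]
  exact h3

/-! ### the pencil -/

section pencil

variable {ι : Type} [Fintype ι] [DecidableEq ι] {L : LB X.X ι} {a : X.X → Fin 2 → ℂ}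

theorem locRep_of_ploc {s t : H0 L a 0} {U : Set X.X} {g0 g1 : X.X → ℂ} {φ : X.X → ℝ}
    (h : PLoc FL.C2 (pN s.1 t.1) U g0 g1 φ) (hs : IsNormFn FL.C2 (Ns X s)) :
    LocRep FL.C2 (Ns X s) U g0 φ := by
  have heq : ∀ x ∈ U, Ns X s x = ‖g0 x‖ ^ 2 * Real.exp (-φ x) := by
    intro x hx
    have := h.eq 1 0 x hx
    simp only [pN, one_smul, zero_smul, add_zero, one_mul, zero_mul] at this
    exact this
  refine ⟨h.isOpen, h.hol0, ?_, h.smooth, heq⟩
  intro V hV hVU hne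
  obtain ⟨x, hxV, hx⟩ := hs.dense_ne_zero.inter_open_nonempty V hV hne
  refine ⟨x, hxV, fun h0 => hx ?_⟩
  rw [heq x (hVU hxV), h0, norm_zero]
  simp

theorem locRep_of_ploc' {s t : H0 L a 0} {U : Set X.X} {g0 g1 : X.X → ℂ} {φ : X.X → ℝ}
    (h : PLoc FL.C2 (pN s.1 t.1) U g0 g1 φ) (ht : IsNormFn FL.C2 (Ns X t)) :
    LocRep FL.C2 (Ns X t) U g1 φ := by
  have heq : ∀ x ∈ U, Ns X t x = ‖g1 x‖ ^ 2 * Real.exp (-φ x) := by
    intro x hx
    have := h.eq 0 1 x hx
    simp only [pN, one_smul, zero_smul, zero_add, one_mul, zero_mul] at this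
    exact this
  refine ⟨h.isOpen, h.hol1, ?_, h.smooth, heq⟩
  intro V hV hVU hne
  obtain ⟨x, hxV, hx⟩ := ht.dense_ne_zero.inter_open_nonempty V hV hne
  refine ⟨x, hxV, fun h0 => hx ?_⟩
  rw [heq x (hVU hxV), h0, norm_zero]
  simp

/-- local data at a point: the two sections divided by their common part -/
structure Loc (s t : H0 L a 0) (G D₁ D₂ : PD X.X →₀ ℕ) (p : X.X) where
  V : Set X.X
  isOpen : IsOpen V
  mem : p ∈ V
  U : Set X.X
  g0 : X.X → ℂ
  g1 : X.X → ℂ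
  φ : X.X → ℝ
  ploc : PLoc FL.C2 (pN s.1 t.1) U g0 g1 φ
  sub : V ⊆ U
  S : X.X → ℂ
  T : X.X → ℂ
  S_hol : ∀ z ∈ V, HolN S z
  T_hol : ∀ z ∈ V, HolN T z
  g0_eq : ∀ z ∈ V, g0 z = S z * prodf G p z
  g1_eq : ∀ z ∈ V, g1 z = T z * prodf G p z
  S_zero : ∀ z ∈ V, S z = 0 ↔ Nm D₁ z = 0
  T_zero : ∀ z ∈ V, T z = 0 ↔ Nm D₂ z = 0
  memG : ∀ z ∈ V, ∀ C ∈ G.support, z ∈ (C : PD X.X).eff.U p

theorem exists_loc (ha : L.IsHol a) {s t : H0 L a 0} (hs : s ≠ 0) (ht : t ≠ 0)
    {G D₁ D₂ : PD X.X →₀ ℕ} (e1 : dvs X hS hR h01 s = G + D₁) (e2 : dvs X hS hR h01 t = G + D₂)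
    (hind : ∀ c d : ℂ, (c ≠ 0 ∨ d ≠ 0) → c • s + d • t ≠ 0) (p : X.X) :
    Nonempty (Loc X s t G D₁ D₂ p) := by
  have hsec : ∀ c d : ℂ, (c ≠ 0 ∨ d ≠ 0) → IsSection L a 0 (fun x => c • s.1 x + d • t.1 x) :=
    fun c d hcd => H445.isSection_of_mem X ha (c • s + d • t).2 (sec_ne X (hind c d hcd))
  obtain ⟨U, g0, g1, φ, hpU, hl⟩ := ploc_pN hsec p
  have r0 := locRep_of_ploc X hl (Ns_nf X ha hs)
  have r1 := locRep_of_ploc' X hl (Ns_nf X ha ht)
  have a0 := assoc_loc X hS hR h01 (Ns_nf X ha hs) r0 hpU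
  have a1 := assoc_loc X hS hR h01 (Ns_nf X ha ht) r1 hpU
  change Assoc g0 (prodf (dvs X hS hR h01 s) p) p at a0
  change Assoc g1 (prodf (dvs X hS hR h01 t) p) p at a1
  rw [e1, H470.prodf_add] at a0
  rw [e2, H470.prodf_add] at a1
  obtain ⟨u, hu, hu2⟩ := a0
  obtain ⟨w, hw, hw2⟩ := a1
  have hS1 : HolN (fun z => u z * prodf D₁ p z) p := hu.1.mul (H470.holN_prodf D₁ p)
  have hT1 : HolN (fun z => w z * prodf D₂ p z) p := hw.1.mul (H470.holN_prodf D₂ p)
  have hev : ∀ᶠ z in 𝓝 p, (z ∈ U ∧ u z ≠ 0 ∧ w z ≠ 0) ∧ (g0 z = u z * (prodf G p z * prodf D₁ p z) ∧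
      g1 z = w z * (prodf G p z * prodf D₂ p z)) ∧ (HolN (fun z => u z * prodf D₁ p z) z ∧
      HolN (fun z => w z * prodf D₂ p z) z) ∧ (∀ C ∈ G.support, z ∈ (C : PD X.X).eff.U p) ∧
      (∀ C ∈ D₁.support, z ∈ (C : PD X.X).eff.U p) ∧
      ∀ C ∈ D₂.support, z ∈ (C : PD X.X).eff.U p := by
    filter_upwards [hl.isOpen.mem_nhds hpU, hu.ne, hw.ne, hu2, hw2, hS1.eventually,
      hT1.eventually, H470.eventually_mem_U G p, H470.eventually_mem_U D₁ p,
      H470.eventually_mem_U D₂ p] with z h1 h2 h3 h4 h5 h6 h7 h8 h9 h10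
    exact ⟨⟨h1, h2, h3⟩, ⟨h4, h5⟩, ⟨h6, h7⟩, h8, h9, h10⟩
  obtain ⟨V, hV, hVo, hpV⟩ := _root_.eventually_nhds_iff.1 hev
  exact ⟨{
    V := V
    isOpen := hVo
    mem := hpV
    U := U
    g0 := g0
    g1 := g1
    φ := φ
    ploc := hl
    sub := fun z hz => (hV z hz).1.1
    S := fun z => u z * prodf D₁ p z
    T := fun z => w z * prodf D₂ p z
    S_hol := fun z hz => (hV z hz).2.2.1.1
    T_hol := fun z hz => (hV z hz).2.2.1.2
    g0_eq := fun z hz => by rw [(hV z hz).2.1.1]; ring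
    g1_eq := fun z hz => by rw [(hV z hz).2.1.2]; ring
    S_zero := fun z hz => by
      rw [mul_eq_zero, prodf_zero_iff X D₁ (hV z hz).2.2.2.2.1]
      exact or_iff_right (hV z hz).1.2.1
    T_zero := fun z hz => by
      rw [mul_eq_zero, prodf_zero_iff X D₂ (hV z hz).2.2.2.2.2]
      exact or_iff_right (hV z hz).1.2.2
    memG := fun z hz => (hV z hz).2.2.2.1 }⟩

theorem loc_rel {s t : H0 L a 0} {G D₁ D₂ : PD X.X →₀ ℕ} {p q : X.X} (A : Loc X s t G D₁ D₂ p)
    (B : Loc X s t G D₁ D₂ q) {x : X.X} (hx : x ∈ A.V) (hx' : x ∈ B.V) :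
    A.S x * B.T x = B.S x * A.T x := by
  refine H815.eq_of_mul_eq (f := fun w => prodf G p w * prodf G q w)
    (u := fun z => A.S z * B.T z) (v := fun z => B.S z * A.T z)
    ((A.S_hol x hx).continuousAt.mul (B.T_hol x hx').continuousAt)
    ((B.S_hol x hx').continuousAt.mul (A.T_hol x hx).continuousAt)
    (prodf_freq_mul X G (A.memG x hx) (B.memG x hx')) ?_
  filter_upwards [A.isOpen.mem_nhds hx, B.isOpen.mem_nhds hx'] with z hz hz'
  have h := H362.ploc_rel A.ploc B.ploc (A.sub hz) (B.sub hz')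
  rw [A.g0_eq z hz, B.g1_eq z hz', B.g0_eq z hz', A.g1_eq z hz] at h
  linear_combination h

/-- two sections whose moving parts are disjoint define a nonconstant map to the sphere -/
theorem elliptic_of_pair (ha : L.IsHol a) {s t : H0 L a 0} (hs : s ≠ 0) (ht : t ≠ 0)
    {G D₁ D₂ : PD X.X →₀ ℕ} (e1 : dvs X hS hR h01 s = G + D₁) (e2 : dvs X hS hR h01 t = G + D₂)
    (h0 : D₁ ≠ 0) (hdis : ∀ x, Nm D₁ x = 0 → Nm D₂ x ≠ 0) : H95.Elliptic X := by
  obtain ⟨C, hC⟩ := Finsupp.ne_iff.1 h0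
  obtain ⟨y, hy⟩ := C.infinite.nonempty
  have hy1 : Nm D₁ y = 0 := by
    rw [← H470.NC_zero_iff] at hy
    rw [Nm, Finsupp.prod, Finset.prod_eq_zero_iff]
    exact ⟨C, Finsupp.mem_support_iff.2 hC, by rw [hy]; exact zero_pow hC⟩
  -- independence
  have hnp : ∀ c : ℂ, t ≠ c • s := by
    intro c hc
    have hc0 : c ≠ 0 := by
      rintro rfl
      rw [zero_smul] at hc
      exact ht hc
    have h1 := dvs_smul X hS hR h01 ha c s hc0 hs
    rw [← hc, e1, e2] at h1
    have h2 : D₂ = D₁ := add_left_cancel h1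
    exact hdis y hy1 (by rw [h2]; exact hy1)
  have hind : ∀ c d : ℂ, (c ≠ 0 ∨ d ≠ 0) → c • s + d • t ≠ 0 := by
    intro c d hcd h
    by_cases hd : d = 0
    · rw [hd, zero_smul, add_zero] at h
      have hc : c ≠ 0 := hcd.resolve_right (fun h => h hd)
      exact (smul_ne_zero hc hs) h
    · apply hnp (-(d⁻¹ * c))
      have h1 : d⁻¹ • (c • s + d • t) = 0 := by rw [h, smul_zero]
      rw [smul_add, smul_smul, smul_smul, inv_mul_cancel₀ hd, one_smul] at h1
      exact (eq_neg_of_add_eq_zero_right h1).trans (neg_smul (d⁻¹ * c) s).symm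
  have hloc : ∀ p, Nonempty (Loc X s t G D₁ D₂ p) :=
    exists_loc X hS hR h01 ha hs ht e1 e2 hind
  let A : ∀ p, Loc X s t G D₁ D₂ p := fun p => (hloc p).some
  let P : H610.Pencil X.X := {
    ι := X.X
    U := fun p => (A p).V
    s := fun p => (A p).S
    t := fun p => (A p).T
    isOpen := fun p => (A p).isOpen
    cover := fun p => ⟨p, (A p).mem⟩
    s_hol := fun p x hx => H362.md_prod (A p).isOpen (fun z hz =>
      ((A p).S_hol z hz).self.mdifferentiableWithinAt) hx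
    t_hol := fun p x hx => H362.md_prod (A p).isOpen (fun z hz =>
      ((A p).T_hol z hz).self.mdifferentiableWithinAt) hx
    ne := fun p x hx => by
      by_cases h : (A p).S x = 0
      · right
        intro h'
        exact hdis x (((A p).S_zero x hx).1 h) (((A p).T_zero x hx).1 h')
      · exact Or.inl h
    rel := fun p q x hx hx' => loc_rel X (A p) (A q) hx hx' }
  -- a point where `D₁` does not vanish
  obtain ⟨z, hz⟩ : ∃ z, Nm D₁ z ≠ 0 := (Nm_nf D₁).dense_ne_zero.nonempty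
  refine ⟨H610.sphere, P.rho, P.holC_rho, y, z, ?_⟩
  have hy2 : y ∈ P.U y := (A y).mem
  have hz2 : z ∈ P.U z := (A z).mem
  rw [P.rho_eq hy2, P.rho_eq hz2]
  intro heq
  have h1 := (P1.mk_eq_iff (P.ne y y hy2) (P.ne z z hz2)).1 heq
  have h2 : P.s y y = 0 := ((A y).S_zero y (A y).mem).2 hy1
  have h3 : P.s z z ≠ 0 := fun h => hz (((A z).S_zero z (A z).mem).1 h)
  have h4 : P.t y y ≠ 0 := (P.ne y y hy2).resolve_left (fun h => h h2)
  rw [h2, zero_mul] at h1
  exact (mul_ne_zero h3 h4) h1.symm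

end pencil

section final

variable {ι : Type} [Fintype ι] [DecidableEq ι] (L : LB X.X ι) (a : X.X → Fin 2 → ℂ)

include hF hS hR h01 in
/-- **A K3 surface with a holomorphic line bundle `L` with `L² = 0` and `c₁(L) ≠ 0` is elliptic.** -/
theorem elliptic_of_isotropic (ha : L.IsHol a) (hsq : isec L L = 0)
    (hne : ¬ ExactTwo L.curv) : H95.Elliptic X := by
  -- not both `L` and its dual have sections
  have key : ∀ {ι' : Type} [Fintype ι'] [DecidableEq ι'] (M : LB X.X ι') (b : X.X → Fin 2 → ℂ),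
      M.IsHol b → isec M M = 0 → 2 ≤ RR.h0 M b 0 → H95.Elliptic X := by
    intro ι' _ _ M b hb hsq h2
    obtain ⟨s, t, G, D₁, D₂, hs, ht, e1, e2, h0, hdis⟩ :=
      exists_pair X hF hS hR h01 hb h2 hsq
    exact elliptic_of_pair X hS hR h01 hb hs ht e1 e2 h0 hdis
  obtain ⟨n, h1, h2, -⟩ := H445.rr_ineq X hS hR h01 L ha
  rw [hsq] at h1
  have hn : n = 0 := by
    have : (n : ℂ) = 0 := by linear_combination -(1 / 2 : ℂ) * h1
    exact_mod_cast this
  rw [hn] at h2
  by_cases h3 : RR.h0 L a 0 = 0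
  · -- the dual has two sections
    rw [h3] at h2
    refine key L.dual (-a) ha.dual ?_ (by push_cast at h2; exact_mod_cast (by linarith :
      (2 : ℤ) ≤ (RR.h0 L.dual (-a) 0 : ℤ)))
    have h4 : isec L.dual L.dual = isec L L := by
      obtain ⟨r, -⟩ : ∃ r : ℕ, r = 0 := ⟨0, rfl⟩
      rw [isec, isec, curv_dual]
      congr 2
      funext x
      simp only [TwoF.wedge]
      have e20 : (-L.curv).f20 x = -(L.curv.f20 x) := rfl
      have e02 : (-L.curv).f02 x = -(L.curv.f02 x) := rfl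
      have e11 : ∀ i j, (-L.curv).f11 x i j = -(L.curv.f11 x i j) := fun i j => rfl
      simp only [e20, e02, e11]
      ring
    rw [h4, hsq]
  by_cases h4 : RR.h0 L.dual (-a) 0 = 0
  · rw [h4] at h2
    exact key L a ha hsq (by push_cast at h2; exact_mod_cast (by linarith :
      (2 : ℤ) ≤ (RR.h0 L a 0 : ℤ)))
  · -- both have sections: the class is zero
    exfalso
    obtain ⟨s, hs⟩ := exists_ne_of_h0 X (M := L) (b := a) (Nat.pos_of_ne_zero h3)
    have h5 := exact_dvs X hS hR h01 ha hs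
    obtain ⟨D, hD⟩ := rr_right X hS hR h01 ha h5 h4
    have h6 : D + dvs X hS hR h01 s = 0 := by
      refine eff_EX X h01 _ ?_
      rw [map_add]
      exact hD
    have h7 : dvs X hS hR h01 s = 0 := by
      ext C
      have := congrArg (fun f => f C) h6
      simp only [Finsupp.add_apply, Finsupp.coe_zero, Pi.zero_apply] at this ⊢
      omega
    rw [h7, map_zero, map_zero, sub_zero] at h5
    exact hne h5

end final

end Vale.Agent.P290.H220.Iso
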